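import Vale.Agent.P181.TS.Spec

/-!
# P181, TS: the test columns (`DColStmt`)
-/

set_option autoImplicit false

namespace Vale.Agent.P181.TS

open Finset Vale.Agent.P181 Vale.Agent.P181.H280 Vale.Agent.P181.H463 Vale.Agent.P181.H59

namespace H415

/-- round robin -/
theorem rr {α : Type} [DecidableEq α] (S : Finset α) (D q : ℕ) (n : Fin D → ℕ)
    (hn : ∀ d, n d ≤ q) (hq : q ≤ S.card) (hq0 : 0 < q) :
    ∃ F : Fin D → Finset α, (∀ d, F d ⊆ S) ∧ (∀ d, (F d).card = n d) ∧
      ∀ u, dgr F u ≤ q * D / S.card + 1 := by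
  classical
  have hs : 0 < S.card := by omega
  let f : ℕ → α := fun x => (S.equivFin.symm ⟨x % S.card, Nat.mod_lt _ hs⟩ : α)
  have hf : ∀ x y, f x = f y → x % S.card = y % S.card := by
    intro x y h
    have := S.equivFin.symm.injective (Subtype.ext h)
    simpa using congrArg Fin.val this
  refine ⟨fun d => (range (n d)).image fun x => f (q * d + x), ?_, ?_, ?_⟩
  · intro d a ha
    obtain ⟨x, -, rfl⟩ := mem_image.1 ha
    exact (S.equivFin.symm _).2
  · intro d
    rw [card_image_of_injOn, card_range]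
    intro x hx y hy h
    have h1 := hf _ _ h
    have hx' : x < S.card := (mem_range.1 hx).trans_le ((hn d).trans hq)
    have hy' : y < S.card := (mem_range.1 hy).trans_le ((hn d).trans hq)
    have h2 : x ≡ y [MOD S.card] := Nat.ModEq.add_left_cancel' (q * d) h1
    exact Nat.ModEq.eq_of_lt_of_lt h2 hx' hy'
  · intro u
    unfold dgr
    have key : ∀ d ∈ univ.filter (fun c : Fin D => u ∈ (range (n c)).image fun x => f (q * c + x)),
        ∃ x, x < q ∧ f (q * (d : ℕ) + x) = u := by
      intro d hd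
      obtain ⟨x, hx, h⟩ := mem_image.1 (mem_filter.1 hd).2
      exact ⟨x, (mem_range.1 hx).trans_le (hn d), h⟩
    choose! x hx hfx using key
    rw [← card_range (q * D / S.card + 1)]
    apply card_le_card_of_injOn (fun d : Fin D => (q * (d : ℕ) + x d) / S.card)
    · intro d hd
      have h0 := hx d hd
      have h1 : q * (d : ℕ) + x d ≤ q * D := by
        have := d.2
        calc q * (d : ℕ) + x d ≤ q * ((d : ℕ) + 1) := by rw [Nat.mul_add, mul_one]; omega
          _ ≤ q * D := Nat.mul_le_mul_left _ this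
      simpa using Nat.lt_succ_of_le (Nat.div_le_div_right (c := S.card) h1)
    · intro d hd d' hd' h
      have h1 : (q * (d : ℕ) + x d) % S.card = (q * (d' : ℕ) + x d') % S.card :=
        hf _ _ ((hfx d hd).trans (hfx d' hd').symm)
      have h2 : q * (d : ℕ) + x d = q * (d' : ℕ) + x d' := by
        rw [← Nat.div_add_mod (q * (d : ℕ) + x d) S.card,
          ← Nat.div_add_mod (q * (d' : ℕ) + x d') S.card, h1]
        simp only at h
        rw [h]
      have h3 : (q * (d : ℕ) + x d) / q = d := by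
        rw [Nat.mul_add_div hq0, Nat.div_eq_of_lt (hx d hd), add_zero]
      have h4 : (q * (d' : ℕ) + x d') / q = d' := by
        rw [Nat.mul_add_div hq0, Nat.div_eq_of_lt (hx d' hd'), add_zero]
      exact Fin.ext (by rw [← h3, ← h4, h2])

/-- distribution of `L` letters on the set `S`, between `1` and `q` for each -/
theorem distr {ι : Type} [DecidableEq ι] (S : Finset ι) (q L : ℕ) (h1 : S.card ≤ L)
    (h2 : L ≤ q * S.card) (hq : 1 ≤ q) :
    ∃ n : ι → ℕ, (∀ i, 1 ≤ n i ∧ n i ≤ q) ∧ ∑ i ∈ S, n i = L := by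
  induction L, h1 using Nat.le_induction with
  | base => exact ⟨fun _ => 1, fun _ => ⟨le_rfl, hq⟩, by simp⟩
  | succ L hL ih =>
    obtain ⟨n, hn, hs⟩ := ih (by omega)
    have : ∃ i ∈ S, n i < q := by
      by_contra hc
      push Not at hc
      have h3 : ∑ i ∈ S, q ≤ ∑ i ∈ S, n i := sum_le_sum hc
      rw [sum_const, smul_eq_mul, hs, mul_comm] at h3
      omega
    obtain ⟨i, hi, hlt⟩ := this
    refine ⟨Function.update n i (n i + 1), ?_, ?_⟩
    · intro j
      by_cases hj : j = i
      · subst hj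
        simp only [Function.update_self]
        have := hn j
        omega
      · rw [Function.update_of_ne hj]
        exact hn j
    · rw [Finset.sum_update_of_mem hi, sdiff_singleton_eq_erase]
      have := add_sum_erase S n hi
      omega

theorem card_fin {N : ℕ} (A B : ℕ) (hB : B ≤ N) :
    (univ.filter fun j : Fin N => A ≤ (j : ℕ) ∧ (j : ℕ) < B).card = B - A := by
  have : (univ.filter fun j : Fin N => A ≤ (j : ℕ) ∧ (j : ℕ) < B).map Fin.valEmbedding
      = Ico A B := by
    ext x
    simp only [mem_map, mem_filter, mem_univ, true_and, Fin.valEmbedding_apply, mem_Ico]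
    constructor
    · rintro ⟨j, hj, rfl⟩
      exact hj
    · intro hx
      exact ⟨⟨x, by omega⟩, hx, rfl⟩
  rw [← card_map Fin.valEmbedding, this, Nat.card_Ico]

theorem card_block {g r β : ℕ} (hr : 0 < r) (hβ : β < g) :
    (univ.filter fun j : Fin (g * r) => (j : ℕ) / r = β).card = r := by
  have h1 : (univ.filter fun j : Fin (g * r) => (j : ℕ) / r = β)
      = univ.filter fun j : Fin (g * r) => β * r ≤ (j : ℕ) ∧ (j : ℕ) < (β + 1) * r := by
    apply filter_congr
    intro j _
    rw [← Nat.le_div_iff_mul_le hr, ← Nat.div_lt_iff_lt_mul hr]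
    omega
  rw [h1, card_fin _ _ (Nat.mul_le_mul_right _ hβ), Nat.succ_mul]
  omega


open Classical in
/-- the test assigned to the column `d` in the block `β` -/
noncomputable def asg {b R : ℕ} (r h τ : ℕ) (T : Finset (Tst b R)) (d : Fin (2 * τ)) (β : ℕ) :
    Option (Tst b R) :=
  if ((d : ℕ) < τ ↔ β < h) then
    ((T.filter fun t => (t.1 : ℕ) / r = β).toList)[(d : ℕ) % τ]?
  else none

theorem asg_mem {b R r h τ : ℕ} {T : Finset (Tst b R)} {d : Fin (2 * τ)} {β : ℕ} {t : Tst b R}
    (h1 : asg r h τ T d β = some t) :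
    t ∈ T ∧ (t.1 : ℕ) / r = β ∧ ((d : ℕ) < τ ↔ β < h) := by
  unfold asg at h1
  split_ifs at h1 with h2
  have h3 := List.mem_of_getElem? h1
  rw [mem_toList, mem_filter] at h3
  exact ⟨h3.1, h3.2, h2⟩

theorem asg_ex {b R r h τ : ℕ} {T : Finset (Tst b R)}
    (hT : ∀ β : ℕ, (T.filter fun t => (t.1 : ℕ) / r = β).card ≤ τ) {t : Tst b R} (ht : t ∈ T) :
    ∃ d : Fin (2 * τ), asg r h τ T d ((t.1 : ℕ) / r) = some t := by
  classical
  have h1 : t ∈ (T.filter fun s => (s.1 : ℕ) / r = (t.1 : ℕ) / r).toList := by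
    rw [mem_toList, mem_filter]
    exact ⟨ht, rfl⟩
  obtain ⟨m, hm⟩ := List.mem_iff_getElem?.1 h1
  have h2 : m < τ := by
    obtain ⟨h3, -⟩ := List.getElem?_eq_some_iff.1 hm
    rw [length_toList] at h3
    exact h3.trans_le (hT _)
  by_cases hβ : (t.1 : ℕ) / r < h
  · refine ⟨⟨m, by omega⟩, ?_⟩
    unfold asg
    rw [if_pos (by simp [h2, hβ])]
    simp only [Nat.mod_eq_of_lt h2]
    convert hm
  · refine ⟨⟨m + τ, by omega⟩, ?_⟩
    unfold asg
    rw [if_pos (by simp [hβ])]
    simp only [Nat.add_mod_right, Nat.mod_eq_of_lt h2]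
    convert hm

theorem asg_inj {b R r h τ : ℕ} {T : Finset (Tst b R)} {d d' : Fin (2 * τ)} {β β' : ℕ}
    {t : Tst b R} (h1 : asg r h τ T d β = some t) (h1' : asg r h τ T d' β' = some t) :
    d = d' := by
  obtain ⟨-, hβ, h2⟩ := asg_mem h1
  obtain ⟨-, hβ', h2'⟩ := asg_mem h1'
  have hb : β = β' := hβ.symm.trans hβ'
  subst hb
  unfold asg at h1 h1'
  rw [if_pos h2] at h1
  rw [if_pos h2'] at h1'
  obtain ⟨h3, -⟩ := List.getElem?_eq_some_iff.1 h1
  have h4 := (List.getElem?_inj h3 (nodup_toList _)).1 (h1.trans h1'.symm)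
  have hd := d.2
  have hd' := d'.2
  apply Fin.ext
  have h5 : ((d : ℕ) < τ ↔ (d' : ℕ) < τ) := h2.trans h2'.symm
  by_cases h6 : (d : ℕ) < τ
  · have h7 := h5.1 h6
    rwa [Nat.mod_eq_of_lt h6, Nat.mod_eq_of_lt h7] at h4
  · have h7 : ¬ (d' : ℕ) < τ := fun h => h6 (h5.2 h)
    have e1 : (d : ℕ) % τ = d - τ := by
      rw [Nat.mod_eq_sub_mod (by omega), Nat.mod_eq_of_lt (by omega)]
    have e2 : (d' : ℕ) % τ = d' - τ := by
      rw [Nat.mod_eq_sub_mod (by omega), Nat.mod_eq_of_lt (by omega)]
    omega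

/-- the numbers of letters -/
theorem numbers {r h τ : ℕ} (hr : 0 < r) (hh : 0 < h) (d : Fin (2 * τ)) (L : ℕ)
    (h1 : 2 * h * r ≤ L) (h2 : L ≤ 128 * (2 * h * r)) :
    ∃ n : Fin (2 * h * r) → ℕ, (∀ j, 1 ≤ n j ∧ n j ≤ 256) ∧
      (∀ j : Fin (2 * h * r), ((d : ℕ) < τ ↔ (j : ℕ) / r < h) → n j = 1) ∧ ∑ j, n j = L := by
  classical
  set S : Finset (Fin (2 * h * r)) := univ.filter fun j => ((d : ℕ) < τ ↔ (j : ℕ) / r < h) with hS
  have e0 : 2 * h * r = h * r + h * r := by ring
  have hlo : (univ.filter fun j : Fin (2 * h * r) => (j : ℕ) / r < h).card = h * r := by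
    have : (univ.filter fun j : Fin (2 * h * r) => (j : ℕ) / r < h)
        = univ.filter fun j : Fin (2 * h * r) => 0 ≤ (j : ℕ) ∧ (j : ℕ) < h * r := by
      apply filter_congr
      intro j _
      rw [← Nat.div_lt_iff_lt_mul hr]
      simp
    rw [this, card_fin _ _ (by omega)]
    omega
  have htot : (univ : Finset (Fin (2 * h * r))).card = 2 * h * r := by simp
  have hhi : (univ.filter fun j : Fin (2 * h * r) => ¬ (j : ℕ) / r < h).card = h * r := by
    have := card_filter_add_card_filter_not (s := (univ : Finset (Fin (2 * h * r))))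
      (fun j : Fin (2 * h * r) => (j : ℕ) / r < h)
    omega
  have hSc : S.card = h * r := by
    by_cases hd : (d : ℕ) < τ
    · simpa [hS, hd] using hlo
    · simpa [hS, hd] using hhi
  have hSc' : (univ \ S).card = h * r := by
    rw [card_sdiff_of_subset (subset_univ _), htot, hSc]
    omega
  obtain ⟨n, hn, hs⟩ := distr (univ \ S) 255 (L - h * r) (by omega) (by omega) (by norm_num)
  refine ⟨fun j => if j ∈ S then 1 else n j, ?_, ?_, ?_⟩
  · intro j
    have := hn j
    show 1 ≤ (if j ∈ S then 1 else n j) ∧ (if j ∈ S then 1 else n j) ≤ 256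
    split_ifs <;> omega
  · intro j hj
    have : j ∈ S := by
      rw [hS, mem_filter]
      exact ⟨mem_univ _, hj⟩
    exact if_pos this
  · have h3 := sum_sdiff (f := fun j => if j ∈ S then 1 else n j) (subset_univ S)
    rw [← h3]
    have h4 : ∑ j ∈ univ \ S, (if j ∈ S then 1 else n j) = ∑ j ∈ univ \ S, n j := by
      apply sum_congr rfl
      intro j hj
      rw [if_neg (mem_sdiff.1 hj).2]
    have h5 : ∑ j ∈ S, (if j ∈ S then 1 else n j) = ∑ j ∈ S, 1 := by
      apply sum_congr rfl
      intro j hj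
      rw [if_pos hj]
    rw [h4, h5, hs, sum_const, smul_eq_mul, mul_one, hSc]
    omega

theorem dCol : DColStmt := by
  classical
  intro b r h e τ z cl y T hr hh he hcl hT len hlen
  obtain ⟨hT1, hT2, hT3, hT4, -⟩ := hT
  have hn := fun d : Fin (2 * τ) => numbers hr hh d (len d) (hlen d).1 (hlen d).2
  choose n hn1 hn2 hn3 using hn
  have hpos : 1 ≤ h * r := Nat.mul_pos hh hr
  have e0 : 2 * h * r = h * r + h * r := by ring
  have hF := fun j : Fin (2 * h * r) => rr (cls cl j) (2 * τ) 256 (fun d => n d j)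
    (fun d => (hn1 d j).2) (by have := hcl j; omega) (by norm_num)
  choose F hF1 hF2 hF3 using hF
  -- the parts
  let P : Fin (2 * τ) → Fin (2 * h * r) → Finset (Fin b) := fun d j =>
    match asg r h τ T d ((j : ℕ) / r) with
    | none => F j d
    | some t => if j = t.1 then {t.2.2.1, t.2.2.2} else if j = t.2.1 then ∅ else F j d
  have hP0 : ∀ (d : Fin (2 * τ)) (j : Fin (2 * h * r)), asg r h τ T d ((j : ℕ) / r) = none →
      P d j = F j d := by
    intro d j h1
    simp only [P, h1]
  have hP1 : ∀ (d : Fin (2 * τ)) (j : Fin (2 * h * r)) (t : Tst b (2 * h * r)),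
      asg r h τ T d ((j : ℕ) / r) = some t →
      P d j = if j = t.1 then {t.2.2.1, t.2.2.2} else if j = t.2.1 then ∅ else F j d := by
    intro d j t h1
    simp only [P, h1]
  have hPsub : ∀ d j, P d j ⊆ cls cl j := by
    intro d j
    rcases hA : asg r h τ T d ((j : ℕ) / r) with _ | t
    · rw [hP0 d j hA]
      exact hF1 j d
    · rw [hP1 d j t hA]
      obtain ⟨htT, -, -⟩ := asg_mem hA
      obtain ⟨c1, c2, -⟩ := hT1 t htT
      split_ifs with h1 h2
      · intro u hu
        rw [mem_insert, mem_singleton] at hu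
        rw [cls, mem_filter]
        refine ⟨mem_univ _, ?_⟩
        rcases hu with rfl | rfl
        · rw [c1, h1]
        · rw [c2, h1]
      · exact empty_subset _
      · exact hF1 j d
  have hPcard : ∀ (d : Fin (2 * τ)) (j : Fin (2 * h * r)) (t : Tst b (2 * h * r)),
      asg r h τ T d ((j : ℕ) / r) = some t →
      (P d j).card + (if j = t.2.1 then 1 else 0) = n d j + (if j = t.1 then 1 else 0) := by
    intro d j t hA
    obtain ⟨htT, -, hp⟩ := asg_mem hA
    obtain ⟨c1, c2, c3, c4, c5, c6⟩ := hT1 t htT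
    have h1 := hn2 d j hp
    rw [hP1 d j t hA, h1]
    by_cases h2 : j = t.1
    · have h3 : j ≠ t.2.1 := by
        rw [h2]
        exact c4.symm
      rw [if_pos h2, if_pos h2, if_neg h3, card_pair c3]
    · rw [if_neg h2, if_neg h2]
      by_cases h3 : j = t.2.1
      · rw [if_pos h3, if_pos h3, card_empty]
      · rw [if_neg h3, if_neg h3, hF2, h1]
  have hempty : ∀ (d : Fin (2 * τ)) (j : Fin (2 * h * r)), P d j = ∅ ↔ ∃ t, asg r h τ T d ((j : ℕ) / r) = some t ∧ j = t.2.1 := by
    intro d j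
    constructor
    · intro h1
      rcases hA : asg r h τ T d ((j : ℕ) / r) with _ | t
      · rw [hP0 d j hA] at h1
        have h2 := hF2 j d
        rw [h1, card_empty] at h2
        have := (hn1 d j).1
        omega
      · refine ⟨t, rfl, ?_⟩
        have h2 := hPcard d j t hA
        rw [h1, card_empty] at h2
        by_contra h3
        rw [if_neg h3] at h2
        have := (hn1 d j).1
        split_ifs at h2 <;> omega
    · rintro ⟨t, hA, h1⟩
      obtain ⟨htT, -, hp⟩ := asg_mem hA
      obtain ⟨c1, c2, c3, c4, c5, c6⟩ := hT1 t htT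
      rw [hP1 d j t hA, if_neg (by rw [h1]; exact c4), if_pos h1]
  have hblk : ∀ (d : Fin (2 * τ)) (β : ℕ), ∑ j ∈ univ.filter (fun j : Fin (2 * h * r) => (j : ℕ) / r = β),
      (P d j).card = ∑ j ∈ univ.filter (fun j : Fin (2 * h * r) => (j : ℕ) / r = β), n d j := by
    intro d β
    rcases hA : asg r h τ T d β with _ | t
    · apply sum_congr rfl
      intro j hj
      have hj' := (mem_filter.1 hj).2
      rw [hP0 d j (by rw [hj']; exact hA), hF2]
    · obtain ⟨htT, htβ, hp⟩ := asg_mem hA
      obtain ⟨c1, c2, c3, c4, c5, c6⟩ := hT1 t htT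
      have h1 : ∑ j ∈ univ.filter (fun j : Fin (2 * h * r) => (j : ℕ) / r = β),
          ((P d j).card + (if j = t.2.1 then 1 else 0)) =
          ∑ j ∈ univ.filter (fun j : Fin (2 * h * r) => (j : ℕ) / r = β),
          (n d j + (if j = t.1 then 1 else 0)) := by
        apply sum_congr rfl
        intro j hj
        have hj' := (mem_filter.1 hj).2
        exact hPcard d j t (by rw [hj']; exact hA)
      have m1 : t.2.1 ∈ univ.filter (fun j : Fin (2 * h * r) => (j : ℕ) / r = β) :=
        mem_filter.2 ⟨mem_univ _, c5.trans htβ⟩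
      have m2 : t.1 ∈ univ.filter (fun j : Fin (2 * h * r) => (j : ℕ) / r = β) :=
        mem_filter.2 ⟨mem_univ _, htβ⟩
      rw [sum_add_distrib, sum_add_distrib, sum_ite_eq', sum_ite_eq', if_pos m1, if_pos m2] at h1
      omega
  -- the columns
  let B : Fin (2 * τ) → Finset (Fin b) := fun d => univ.biUnion (P d)
  have hB : ∀ d u, u ∈ B d ↔ u ∈ P d (cl u) := by
    intro d u
    simp only [B, mem_biUnion, mem_univ, true_and]
    constructor
    · rintro ⟨j, hj⟩
      have h1 := hPsub d j hj
      rw [cls, mem_filter] at h1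
      rw [h1.2]
      exact hj
    · intro hu
      exact ⟨_, hu⟩
  have hmiss : ∀ d j, j ∈ miss cl (B d) ↔ P d j = ∅ := by
    intro d j
    rw [miss, mem_filter]
    constructor
    · rintro ⟨-, h1⟩
      by_contra h2
      obtain ⟨u, hu⟩ := nonempty_of_ne_empty h2
      have h3 := hPsub d j hu
      rw [cls, mem_filter] at h3
      exact h1 u ((hB d u).2 (by rw [h3.2]; exact hu)) h3.2
    · intro h1
      refine ⟨mem_univ _, ?_⟩
      intro u hu h2
      rw [hB, h2, h1] at hu
      exact absurd hu (notMem_empty _)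
  have hdisj : ∀ (d : Fin (2 * τ)) (s : Set (Fin (2 * h * r))), s.PairwiseDisjoint (P d) := by
    intro d s i _ j _ hij
    rw [Function.onFun, disjoint_left]
    intro u hu hv
    have h1 := hPsub d i hu
    have h2 := hPsub d j hv
    rw [cls, mem_filter] at h1 h2
    exact hij (h1.2.symm.trans h2.2)
  have hinBlk : ∀ (d : Fin (2 * τ)) (β : ℕ), (inBlk r cl (B d) β).card
      = ∑ j ∈ univ.filter (fun j : Fin (2 * h * r) => (j : ℕ) / r = β), n d j := by
    intro d β
    rw [← hblk d β, ← card_biUnion (fun i hi j hj hij => hdisj d Set.univ trivial trivial hij)]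
    congr 1
    ext u
    rw [inBlk, mem_filter, hB, mem_biUnion]
    constructor
    · rintro ⟨h1, h2⟩
      exact ⟨cl u, mem_filter.2 ⟨mem_univ _, h2⟩, h1⟩
    · rintro ⟨j, hj, h1⟩
      have h2 := hPsub d j h1
      rw [cls, mem_filter] at h2
      rw [h2.2]
      exact ⟨h1, (mem_filter.1 hj).2⟩
  have hblkr : ∀ (d : Fin (2 * τ)) (β : ℕ), ((d : ℕ) < τ ↔ β < h) → β < 2 * h →
      (inBlk r cl (B d) β).card = r := by
    intro d β h1 h2
    rw [hinBlk]
    rw [sum_congr rfl (g := fun _ => 1) (by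
      intro j hj
      have hj' := (mem_filter.1 hj).2
      exact hn2 d j (by rw [hj']; exact h1))]
    rw [sum_const, smul_eq_mul, mul_one, card_block hr h2]
  have hlt : ∀ j : Fin (2 * h * r), (j : ℕ) / r < 2 * h := fun j =>
    (Nat.div_lt_iff_lt_mul hr).2 j.2
  refine ⟨B, ?_, ?_, ?_, ?_, ?_⟩
  · -- cards
    intro d
    have h1 : (B d).card = ∑ j, (P d j).card :=
      card_biUnion (fun i hi j hj hij => hdisj d Set.univ trivial trivial hij)
    rw [h1, ← hn3 d]
    have h2 : ∀ j ∈ (univ : Finset (Fin (2 * h * r))), (j : ℕ) / r ∈ range (2 * h) :=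
      fun j _ => mem_range.2 (hlt j)
    rw [← sum_fiberwise_of_maps_to h2 (fun j => (P d j).card),
      ← sum_fiberwise_of_maps_to h2 (fun j => n d j)]
    exact sum_congr rfl fun β _ => hblk d β
  · -- Reg
    intro d β
    rcases hA : asg r h τ T d β with _ | t
    · left
      intro i hi
      rw [hmiss, hempty]
      rintro ⟨t, ht, -⟩
      rw [hi, hA] at ht
      exact absurd ht (by simp)
    · right
      obtain ⟨htT, htβ, hp⟩ := asg_mem hA
      obtain ⟨c1, c2, c3, c4, c5, c6⟩ := hT1 t htT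
      have hβ2 : β < 2 * h := by
        rw [← htβ]
        exact hlt _
      have hPt : P d t.1 = {t.2.2.1, t.2.2.2} := by
        rw [hP1 d t.1 t (by rw [htβ]; exact hA), if_pos rfl]
      refine ⟨t.2.1, c5.trans htβ, ?_, hblkr d β hp hβ2, t.2.2.1, ?_, t.2.2.2, ?_, c3,
        c1.trans c2.symm, ?_, c6⟩
      · intro i hi
        rw [hmiss, hempty]
        constructor
        · rintro ⟨s, hs, h1⟩
          rw [hi, hA] at hs
          rw [h1, ← Option.some.inj hs]
        · intro h1
          exact ⟨t, by rw [hi]; exact hA, h1⟩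
      · rw [hB, c1, hPt]
        exact mem_insert_self _ _
      · rw [hB, c2, hPt]
        exact mem_insert_of_mem (mem_singleton_self _)
      · rw [c1]
        exact htβ
  · -- the tests
    intro t htT
    obtain ⟨d, hA⟩ := asg_ex (h := h) hT2 htT
    obtain ⟨-, -, hp⟩ := asg_mem hA
    obtain ⟨c1, c2, c3, c4, c5, c6⟩ := hT1 t htT
    have hPt : P d t.1 = {t.2.2.1, t.2.2.2} := by
      rw [hP1 d t.1 t hA, if_pos rfl]
    refine ⟨d, ?_, ?_, hblkr d _ hp (hlt _), ?_⟩
    · rw [hB, c1, hPt]
      exact mem_insert_self _ _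
    · rw [hB, c2, hPt]
      exact mem_insert_of_mem (mem_singleton_self _)
    · intro k hk hkβ
      rw [hmiss, hempty] at hk
      obtain ⟨s, hs, h1⟩ := hk
      rw [hkβ, hA] at hs
      rw [h1, ← Option.some.inj hs]
  · -- degrees
    intro u
    have h1 : dgr B u ≤ (univ.filter fun d : Fin (2 * τ) => u ∈ F (cl u) d).card +
        (univ.filter fun d : Fin (2 * τ) => ∃ t ∈ T, asg r h τ T d ((cl u : ℕ) / r) = some t ∧
          (t.2.2.1 = u ∨ t.2.2.2 = u)).card := by
      rw [dgr]
      refine (card_le_card ?_).trans (card_union_le _ _)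
      intro d hd
      have hd' := (mem_filter.1 hd).2
      rw [hB] at hd'
      rw [mem_union, mem_filter, mem_filter]
      rcases hA : asg r h τ T d ((cl u : ℕ) / r) with _ | t
      · rw [hP0 d _ hA] at hd'
        exact Or.inl ⟨mem_univ _, hd'⟩
      · rw [hP1 d _ t hA] at hd'
        split_ifs at hd' with h2 h3
        · right
          refine ⟨mem_univ _, t, (asg_mem hA).1, rfl, ?_⟩
          rw [mem_insert, mem_singleton] at hd'
          rcases hd' with h4 | h4
          · exact Or.inl h4.symm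
          · exact Or.inr h4.symm
        · exact absurd hd' (notMem_empty _)
        · exact Or.inl ⟨mem_univ _, hd'⟩
    have h2 : (univ.filter fun d : Fin (2 * τ) => ∃ t ∈ T, asg r h τ T d ((cl u : ℕ) / r) = some t ∧
          (t.2.2.1 = u ∨ t.2.2.2 = u)).card ≤ 10 * r := by
      refine le_trans ?_ (hT4 u)
      have key : ∀ d ∈ univ.filter (fun d : Fin (2 * τ) => ∃ t ∈ T,
          asg r h τ T d ((cl u : ℕ) / r) = some t ∧ (t.2.2.1 = u ∨ t.2.2.2 = u)),
          ∃ t, t ∈ T ∧ asg r h τ T d ((cl u : ℕ) / r) = some t ∧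
            (t.2.2.1 = u ∨ t.2.2.2 = u) := by
        intro d hd
        obtain ⟨t, h3, h4⟩ := (mem_filter.1 hd).2
        exact ⟨t, h3, h4⟩
      rcases (univ.filter (fun d : Fin (2 * τ) => ∃ t ∈ T,
          asg r h τ T d ((cl u : ℕ) / r) = some t ∧
            (t.2.2.1 = u ∨ t.2.2.2 = u))).eq_empty_or_nonempty with h5 | ⟨d0, hd0⟩
      · rw [h5, card_empty]
        exact Nat.zero_le _
      · obtain ⟨t0, -⟩ := key d0 hd0
        have : Nonempty (Tst b (2 * h * r)) := ⟨t0⟩
        choose! f hf using key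
        apply card_le_card_of_injOn f
        · intro d hd
          exact mem_coe.2 (mem_filter.2 ⟨(hf d hd).1, (hf d hd).2.2⟩)
        · intro d hd d' hd' h6
          have h7 := (hf d hd).2.1
          have h8 := (hf d' hd').2.1
          rw [← h6] at h8
          exact asg_inj h7 h8
    have h3 : (univ.filter fun d : Fin (2 * τ) => u ∈ F (cl u) d).card
        ≤ 256 * (2 * τ) / (cls cl (cl u)).card + 1 := hF3 (cl u) u
    have h4 : 256 * (2 * τ) / (cls cl (cl u)).card ≤ 256 * (2 * τ) / e :=
      Nat.div_le_div_left (hcl (cl u)).1 (by omega)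
    have h5 : 256 * (2 * τ) / e ≤ 512 * (τ / e + 1) := by
      have he0 : 0 < e := by omega
      have h6 : τ < e * (τ / e + 1) := by
        have := Nat.lt_mul_div_succ τ he0
        exact this
      apply Nat.le_of_lt_succ
      rw [Nat.div_lt_iff_lt_mul he0]
      nlinarith
    generalize τ / e = m at h5 ⊢
    generalize 256 * (2 * τ) / e = m1 at h4 h5
    generalize 256 * (2 * τ) / (cls cl (cl u)).card = m2 at h3 h4
    omega
  · -- misses
    intro k
    refine le_trans ?_ (hT3 k)
    have key : ∀ d ∈ univ.filter (fun d : Fin (2 * τ) => k ∈ miss cl (B d)),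
        ∃ t, asg r h τ T d ((k : ℕ) / r) = some t ∧ k = t.2.1 := by
      intro d hd
      have h1 := (mem_filter.1 hd).2
      rw [hmiss, hempty] at h1
      exact h1
    rcases (univ.filter (fun d : Fin (2 * τ) => k ∈ miss cl (B d))).eq_empty_or_nonempty with
      h5 | ⟨d0, hd0⟩
    · rw [h5, card_empty]
      exact Nat.zero_le _
    · obtain ⟨t0, -⟩ := key d0 hd0
      have : Nonempty (Tst b (2 * h * r)) := ⟨t0⟩
      choose! f hf using key
      apply card_le_card_of_injOn f
      · intro d hd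
        exact mem_coe.2 (mem_filter.2 ⟨(asg_mem (hf d hd).1).1, (hf d hd).2.symm⟩)
      · intro d hd d' hd' h6
        have h7 := (hf d hd).1
        have h8 := (hf d' hd').1
        rw [← h6] at h8
        exact asg_inj h7 h8

end H415
end Vale.Agent.P181.TS
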